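import Mathlib
import Vale.Agent.Lib.P248.helper37.Q2Defs

/-!
P248, pool job Q2AB-J1 (helper38, second copy): the cone inequality for a compact convex subset
`M` of the closed positive orthant (not assumed down-closed) and a point `y` of `M`:
`∑ i, y i * |sec M i| ≤ (n + 1) * |M|`.

The cones with apex `y` over the facets of `M` in the coordinate hyperplanes lie in `M`, the
cone over the facet `p i = 0` has volume at least `y i / (n + 1)` times the volume of the facet
(slicing along the coordinate `i`), and two different cones meet in a hyperplane through the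
origin, which is a null set.
-/

open MeasureTheory Set

namespace Vale.Agent.Lib.P248.H38Q

open Vale.Agent.Lib.P248.H37 Vale.Agent.Lib.P248.H37Q

/-- The cone with apex `y` over the facet of `M` in the coordinate hyperplane `p i = 0`. -/
def cone {n : ℕ} (M : Set (Fin (n + 1) → ℝ)) (y : Fin (n + 1) → ℝ) (i : Fin (n + 1)) :
    Set (Fin (n + 1) → ℝ) :=
  (fun q : ℝ × (Fin n → ℝ) =>
    (1 - q.1) • y + q.1 • (Fin.insertNth i (0 : ℝ) q.2 : Fin (n + 1) → ℝ)) ''
      (Icc (0 : ℝ) 1 ×ˢ sec M i)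

theorem isCompact_sec {n : ℕ} {M : Set (Fin (n + 1) → ℝ)} (hcomp : IsCompact M)
    (i : Fin (n + 1)) : IsCompact (sec M i) := by
  have e : sec M i = (fun p : Fin (n + 1) → ℝ => fun k : Fin n => p (i.succAbove k)) ''
      (M ∩ {p | p i = 0}) := by
    ext w
    constructor
    · intro hw
      exact ⟨Fin.insertNth i (0 : ℝ) w, ⟨hw, ins_same i 0 w⟩, funext fun k => ins_succ i 0 w k⟩
    · rintro ⟨p, ⟨hp, hp0⟩, rfl⟩
      have hp0' : p i = 0 := hp0
      have e2 : (Fin.insertNth i (0 : ℝ) (fun k : Fin n => p (i.succAbove k)) :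
          Fin (n + 1) → ℝ) = p := by
        funext j
        revert j
        rw [i.forall_iff_succAbove]
        exact ⟨by rw [ins_same, hp0'], fun k => by rw [ins_succ]⟩
      show (Fin.insertNth i (0 : ℝ) (fun k : Fin n => p (i.succAbove k)) :
          Fin (n + 1) → ℝ) ∈ M
      rw [e2]
      exact hp
  rw [e]
  exact (hcomp.inter_right (isClosed_eq (continuous_apply i) continuous_const)).image
    (continuous_pi fun k => continuous_apply _)

theorem isCompact_cone {n : ℕ} {M : Set (Fin (n + 1) → ℝ)} (hcomp : IsCompact M)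
    (y : Fin (n + 1) → ℝ) (i : Fin (n + 1)) : IsCompact (cone M y i) := by
  have hc : Continuous (fun q : ℝ × (Fin n → ℝ) =>
      (1 - q.1) • y + q.1 • (Fin.insertNth i (0 : ℝ) q.2 : Fin (n + 1) → ℝ)) :=
    ((continuous_const.sub continuous_fst).smul continuous_const).add
      (continuous_fst.smul ((continuous_ins i).comp continuous_snd))
  exact (isCompact_Icc.prod (isCompact_sec hcomp i)).image hc

theorem cone_subset {n : ℕ} {M : Set (Fin (n + 1) → ℝ)} (hconv : Convex ℝ M)
    {y : Fin (n + 1) → ℝ} (hy : y ∈ M) (i : Fin (n + 1)) : cone M y i ⊆ M := by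
  rintro _ ⟨⟨t, w⟩, ⟨⟨ht0, ht1⟩, hw⟩, rfl⟩
  have hw' : (Fin.insertNth i (0 : ℝ) w : Fin (n + 1) → ℝ) ∈ M := hw
  have ht0' : (0 : ℝ) ≤ t := ht0
  have ht1' : t ≤ 1 := ht1
  exact hconv hy hw' (by linarith) ht0' (by ring)

/-- Coordinates of a point of the cone over the facet `p i = 0`. -/
theorem cone_coord {n : ℕ} {M : Set (Fin (n + 1) → ℝ)} (hnn : ∀ p ∈ M, ∀ i, 0 ≤ p i)
    {y : Fin (n + 1) → ℝ} {i : Fin (n + 1)} {p : Fin (n + 1) → ℝ} (hp : p ∈ cone M y i) :
    ∃ t : ℝ, 0 ≤ t ∧ t ≤ 1 ∧ p i = (1 - t) * y i ∧ ∀ k, (1 - t) * y k ≤ p k := by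
  obtain ⟨⟨t, w⟩, ⟨⟨ht0, ht1⟩, hw⟩, rfl⟩ := hp
  have hw' : (Fin.insertNth i (0 : ℝ) w : Fin (n + 1) → ℝ) ∈ M := hw
  have ht0' : (0 : ℝ) ≤ t := ht0
  have ht1' : t ≤ 1 := ht1
  refine ⟨t, ht0', ht1', ?_, fun k => ?_⟩
  · simp only [Pi.add_apply, Pi.smul_apply, smul_eq_mul, ins_same, mul_zero, add_zero]
  · have h := hnn _ hw' k
    have h2 := mul_nonneg ht0' h
    simp only [Pi.add_apply, Pi.smul_apply, smul_eq_mul]
    linarith

/-- Two different cones meet in a null set. -/
theorem cone_inter_null {n : ℕ} (M : Set (Fin (n + 1) → ℝ)) (hnn : ∀ p ∈ M, ∀ i, 0 ≤ p i)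
    (y : Fin (n + 1) → ℝ) (hy : y ∈ M) {i j : Fin (n + 1)} (hij : i ≠ j) (hyi : 0 < y i) :
    volume (cone M y i ∩ cone M y j) = 0 := by
  have hker : LinearMap.ker (y j • (LinearMap.proj i : (Fin (n + 1) → ℝ) →ₗ[ℝ] ℝ)
      - y i • (LinearMap.proj j : (Fin (n + 1) → ℝ) →ₗ[ℝ] ℝ)) ≠ ⊤ := by
    intro h
    have hm : (Pi.single j (1 : ℝ) : Fin (n + 1) → ℝ) ∈ LinearMap.ker
        (y j • (LinearMap.proj i : (Fin (n + 1) → ℝ) →ₗ[ℝ] ℝ)
          - y i • (LinearMap.proj j : (Fin (n + 1) → ℝ) →ₗ[ℝ] ℝ)) := by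
      rw [h]
      trivial
    rw [LinearMap.mem_ker] at hm
    simp only [LinearMap.sub_apply, LinearMap.smul_apply, LinearMap.proj_apply, smul_eq_mul,
      Pi.single_eq_same, Pi.single_eq_of_ne hij, mul_zero, mul_one, zero_sub, neg_eq_zero] at hm
    linarith
  have hnull := Measure.addHaar_submodule (volume : Measure (Fin (n + 1) → ℝ)) _ hker
  refine measure_mono_null ?_ hnull
  intro p hp
  obtain ⟨t, ht0, ht1, hti, htk⟩ := cone_coord hnn hp.1
  obtain ⟨s, hs0, hs1, hsj, hsk⟩ := cone_coord hnn hp.2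
  have hyj : 0 ≤ y j := hnn y hy j
  have a1 := htk j
  have a2 := hsk i
  have e1 : (s - t) * y j ≤ 0 := by rw [hsj] at a1; linarith
  have e2 : (t - s) * y i ≤ 0 := by rw [hti] at a2; linarith
  have e3 : y i * ((s - t) * y j) ≤ 0 := mul_nonpos_of_nonneg_of_nonpos hyi.le e1
  have e4 : y j * ((t - s) * y i) ≤ 0 := mul_nonpos_of_nonneg_of_nonpos hyj e2
  rw [SetLike.mem_coe, LinearMap.mem_ker]
  simp only [LinearMap.sub_apply, LinearMap.smul_apply, LinearMap.proj_apply, smul_eq_mul]
  rw [hti, hsj]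
  linarith

theorem lintegral_cone_profile (n : ℕ) (h : ℝ) (hh : 0 < h) :
    ∫⁻ t in Ico (0:ℝ) h, ENNReal.ofReal ((1 - t / h) ^ n) = ENNReal.ofReal (h / (n + 1)) := by
  have hcont : Continuous (fun t : ℝ => (1 - t / h) ^ n) := by fun_prop
  have hint : IntegrableOn (fun t : ℝ => (1 - t / h) ^ n) (Ico (0:ℝ) h) :=
    (hcont.integrableOn_Icc).mono_set Ico_subset_Icc_self
  have hnn : 0 ≤ᵐ[volume.restrict (Ico (0:ℝ) h)] (fun t : ℝ => (1 - t / h) ^ n) := by
    refine (ae_restrict_iff' measurableSet_Ico).mpr (Filter.Eventually.of_forall fun t ht => ?_)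
    have h1 : t / h ≤ 1 := (div_le_one hh).mpr ht.2.le
    exact pow_nonneg (by linarith) n
  rw [← ofReal_integral_eq_lintegral_ofReal hint hnn]
  congr 1
  rw [integral_Ico_eq_integral_Ioc, ← intervalIntegral.integral_of_le hh.le]
  have hderiv : ∀ x ∈ uIcc (0:ℝ) h,
      HasDerivAt (fun t : ℝ => -(h / (n + 1)) * (1 - t / h) ^ (n + 1)) ((1 - x / h) ^ n) x := by
    intro x _
    have h1 : HasDerivAt (fun t : ℝ => 1 - t / h) (-(1 / h)) x := by
      have h0 := ((hasDerivAt_id x).div_const h).const_sub 1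
      simpa using h0
    have h2 : HasDerivAt (fun t : ℝ => -(h / (n + 1)) * (1 - t / h) ^ (n + 1))
        (-(h / (n + 1)) * (((n + 1 : ℕ) : ℝ) * (1 - x / h) ^ (n + 1 - 1) * -(1 / h))) x :=
      (h1.pow (n + 1)).const_mul (-(h / (n + 1)))
    refine h2.congr_deriv ?_
    have hn : (n : ℝ) + 1 ≠ 0 := by positivity
    rw [Nat.add_sub_cancel]
    push_cast
    field_simp
  rw [intervalIntegral.integral_eq_sub_of_hasDerivAt hderiv (hcont.intervalIntegrable _ _)]
  have h0 : (1 - h / h) = 0 := by rw [div_self hh.ne', sub_self]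
  rw [h0]
  simp

/-- The cone over the facet `p i = 0` has volume at least `y i / (n + 1)` times the volume of
the facet. -/
theorem volume_cone_ge {n : ℕ} {M : Set (Fin (n + 1) → ℝ)} (hcomp : IsCompact M)
    (y : Fin (n + 1) → ℝ) {i : Fin (n + 1)} (hyi : 0 < y i) :
    ENNReal.ofReal (y i / ((n : ℝ) + 1)) * volume (sec M i) ≤ volume (cone M y i) := by
  have hCmeas : MeasurableSet (cone M y i) := (isCompact_cone hcomp y i).isClosed.measurableSet
  have hSmeas : MeasurableSet
      ((MeasurableEquiv.piFinSuccAbove (fun _ => ℝ) i).symm ⁻¹' cone M y i) :=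
    (MeasurableEquiv.piFinSuccAbove (fun _ => ℝ) i).symm.measurable hCmeas
  have h1 : volume ((MeasurableEquiv.piFinSuccAbove (fun _ => ℝ) i).symm ⁻¹' cone M y i)
      = volume (cone M y i) :=
    (MeasurePreserving.symm _
      (volume_preserving_piFinSuccAbove (fun _ => ℝ) i)).measure_preimage_equiv _
  have hslice : ∀ s ∈ Ico (0 : ℝ) (y i),
      ENNReal.ofReal ((1 - s / y i) ^ n) * volume (sec M i) ≤
        volume (Prod.mk s ⁻¹'
          ((MeasurableEquiv.piFinSuccAbove (fun _ => ℝ) i).symm ⁻¹' cone M y i)) := by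
    intro s hs
    have hr0 : 0 ≤ s / y i := div_nonneg hs.1 hyi.le
    have hr1 : s / y i < 1 := (div_lt_one hyi).mpr hs.2
    have hsub : AffineMap.homothety (fun k : Fin n => y (i.succAbove k)) (1 - s / y i) '' sec M i
        ⊆ Prod.mk s ⁻¹'
          ((MeasurableEquiv.piFinSuccAbove (fun _ => ℝ) i).symm ⁻¹' cone M y i) := by
      rintro _ ⟨w, hw, rfl⟩
      show (Fin.insertNth i s (AffineMap.homothety (fun k : Fin n => y (i.succAbove k))
        (1 - s / y i) w) : Fin (n + 1) → ℝ) ∈ cone M y i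
      refine ⟨(1 - s / y i, w), ⟨⟨by linarith, by linarith⟩, hw⟩, ?_⟩
      funext j
      revert j
      rw [i.forall_iff_succAbove]
      refine ⟨?_, fun k => ?_⟩
      · simp only [Pi.add_apply, Pi.smul_apply, smul_eq_mul, ins_same, mul_zero, add_zero]
        field_simp
        ring
      · simp only [Pi.add_apply, Pi.smul_apply, smul_eq_mul, ins_succ,
          AffineMap.homothety_apply, vsub_eq_sub, vadd_eq_add, Pi.sub_apply]
        ring
    calc ENNReal.ofReal ((1 - s / y i) ^ n) * volume (sec M i)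
        = volume (AffineMap.homothety (fun k : Fin n => y (i.succAbove k)) (1 - s / y i) ''
            sec M i) := by
          rw [Measure.addHaar_image_homothety, Module.finrank_fin_fun,
            abs_of_nonneg (pow_nonneg (by linarith) n)]
      _ ≤ _ := measure_mono hsub
  have hmf : Measurable (fun s : ℝ => ENNReal.ofReal ((1 - s / y i) ^ n)) := by fun_prop
  rw [← h1, Measure.volume_eq_prod, Measure.prod_apply hSmeas]
  calc ENNReal.ofReal (y i / ((n : ℝ) + 1)) * volume (sec M i)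
      = (∫⁻ s in Ico (0 : ℝ) (y i), ENNReal.ofReal ((1 - s / y i) ^ n)) * volume (sec M i) := by
        rw [lintegral_cone_profile n (y i) hyi]
    _ = ∫⁻ s in Ico (0 : ℝ) (y i), ENNReal.ofReal ((1 - s / y i) ^ n) * volume (sec M i) := by
        rw [lintegral_mul_const _ hmf]
    _ ≤ ∫⁻ s in Ico (0 : ℝ) (y i), volume (Prod.mk s ⁻¹'
          ((MeasurableEquiv.piFinSuccAbove (fun _ => ℝ) i).symm ⁻¹' cone M y i)) :=
        setLIntegral_mono' measurableSet_Ico hslice
    _ ≤ ∫⁻ s, volume (Prod.mk s ⁻¹'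
          ((MeasurableEquiv.piFinSuccAbove (fun _ => ℝ) i).symm ⁻¹' cone M y i)) :=
        setLIntegral_le_lintegral _ _

theorem cone_ineq_convex (n : ℕ) (M : Set (Fin (n + 1) → ℝ)) (hcomp : IsCompact M)
    (hconv : Convex ℝ M) (hnn : ∀ p ∈ M, ∀ i, 0 ≤ p i) (y : Fin (n + 1) → ℝ) (hy : y ∈ M) :
    ∑ i, ENNReal.ofReal (y i) * volume (sec M i) ≤ ((n : ENNReal) + 1) * volume M := by
  classical
  have hterm : ∀ i ∈ Finset.univ.filter (fun i => 0 < y i),
      ENNReal.ofReal (y i) * volume (sec M i) ≤ ((n : ENNReal) + 1) * volume (cone M y i) := by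
    intro i hi
    have hyi : 0 < y i := (Finset.mem_filter.1 hi).2
    have h := volume_cone_ge hcomp y hyi
    have e : ENNReal.ofReal (y i)
        = ((n : ENNReal) + 1) * ENNReal.ofReal (y i / ((n : ℝ) + 1)) := by
      have h5 : ((n : ENNReal) + 1) = ENNReal.ofReal ((n : ℝ) + 1) := by
        rw [ENNReal.ofReal_add (by positivity) (by norm_num), ENNReal.ofReal_natCast,
          ENNReal.ofReal_one]
      rw [h5, ← ENNReal.ofReal_mul (by positivity)]
      congr 1
      field_simp
    rw [e, mul_assoc]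
    gcongr
  calc ∑ i, ENNReal.ofReal (y i) * volume (sec M i)
      = ∑ i ∈ Finset.univ.filter (fun i => 0 < y i),
          ENNReal.ofReal (y i) * volume (sec M i) := by
        symm
        apply Finset.sum_subset (Finset.filter_subset _ _)
        intro i _ hi
        have hle : y i ≤ 0 := by
          by_contra hc
          exact hi (Finset.mem_filter.2 ⟨Finset.mem_univ i, not_le.1 hc⟩)
        rw [ENNReal.ofReal_of_nonpos hle, zero_mul]
    _ ≤ ∑ i ∈ Finset.univ.filter (fun i => 0 < y i),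
          ((n : ENNReal) + 1) * volume (cone M y i) := Finset.sum_le_sum hterm
    _ = ((n : ENNReal) + 1) * ∑ i ∈ Finset.univ.filter (fun i => 0 < y i),
          volume (cone M y i) := by rw [Finset.mul_sum]
    _ = ((n : ENNReal) + 1) * volume (⋃ i ∈ Finset.univ.filter (fun i => 0 < y i),
          cone M y i) := by
        rw [measure_biUnion_finset₀]
        · intro i hi j _ hij
          exact cone_inter_null M hnn y hy hij (Finset.mem_filter.1 (Finset.mem_coe.1 hi)).2
        · intro i _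
          exact (isCompact_cone hcomp y i).isClosed.measurableSet.nullMeasurableSet
    _ ≤ ((n : ENNReal) + 1) * volume M := by
        gcongr
        exact Set.iUnion₂_subset (fun i _ => cone_subset hconv hy i)

end Vale.Agent.Lib.P248.H38Q
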